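import Vale.Agent.P273.H720.CellDom
import Vale.Agent.P273.H728.BaseE
import Vale.Agent.P273.H768.Exist

/-!
# P273, LIM-INTEGR: `Integr` from the values of the forms of the regions on the strata
-/

noncomputable section

namespace Vale.Agent.P273.H720

open Set MeasureTheory H95 H728 H503 H183 H837
open H93 hiding Cell

/-- (V1) In each cell the density of `F` on the family of the stratum, times the Jacobian, is the cell
integrand. -/
def V1 : Prop :=
  ∀ (F : Form16) (X : Ext), ExtOf F X → ∀ (p q : Fin 7) (h : p ≤ q)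
    (hp : p.1 ≤ q.1) (hq : q.1 ≤ 6) (σ : Bool → Equiv.Perm (Fin 7)) (e : Bool → Bool)
    (C : Fam Lg14 8), C.IsStable → (coordE e p q h σ).IsGlued C →
    ∀ c : Cell, c.Ok (sm e) → ∀ ζ ∈ D0.Om (sm e) c,
      |(fderiv ℝ (D0.kap (sm e) c) ζ).det| • dens (F 8 C) (D0.kap (sm e) c ζ) =
        val X hp hq σ e c ζ

theorem baseE_eq (e : Bool → Bool) : baseE e = bs (sm e) := by
  ext b
  simp [baseE, bs, sm]

/-- Integrability and the value of the integral as a sum over the cells. -/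
theorem int_of_V1' (hV : V1) {F : Form16} {X : Ext} (hX : ExtOf F X) {p q : Fin 7} (h : p ≤ q)
    (hp : p.1 ≤ q.1) (hq : q.1 ≤ 6) (σ : Bool → Equiv.Perm (Fin 7)) (e : Bool → Bool)
    {C : Fam Lg14 8} (h1 : C.IsStable) (h2 : (coordE e p q h σ).IsGlued C) (T : Finset Cell)
    (hmem : ∀ c, c ∈ T ↔ c.Ok (sm e)) :
    IntegrableOn (dens (F 8 C)) (coordE e p q h σ).base ∧
      ∫ b in (coordE e p q h σ).base, dens (F 8 C) b =
        ∑ c ∈ T, ∫ ζ in D0.Om (sm e) c, val X hp hq σ e c ζ := by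
  rw [base_coordE, baseE_eq]
  have key : ∀ c : Cell, c.Ok (sm e) → ∀ ζ ∈ D0.Om (sm e) c,
      |(fderiv ℝ (D0.kap (sm e) c) ζ).det| • dens (F 8 C) (D0.kap (sm e) c ζ) =
        val X hp hq σ e c ζ := fun c hc ζ hζ => hV F X hX p q h hp hq σ e C h1 h2 c hc ζ hζ
  have hm : ∀ c : Cell, MeasurableSet (D0.Om (sm e) c) := fun c => TD.isOpen_Om.measurableSet
  have hf : ∀ c : Cell, c.Ok (sm e) → IntegrableOn
      (fun ζ => |(fderiv ℝ (D0.kap (sm e) c) ζ).det| • dens (F 8 C) (D0.kap (sm e) c ζ))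
      (D0.Om (sm e) c) := by
    intro c hc
    have h4 : EqOn (val X hp hq σ e c)
        (fun ζ => |(fderiv ℝ (D0.kap (sm e) c) ζ).det| • dens (F 8 C) (D0.kap (sm e) c ζ))
        (D0.Om (sm e) c) := fun ζ hζ => (key c hc ζ hζ).symm
    exact IntegrableOn.congr_fun (val_int hp hq σ e X (sm e)) h4 (hm c)
  have h3 := TD.cells_int' (D := D0) (sm e) (dens (F 8 C)) T hmem hf
  refine ⟨h3.1, h3.2.trans (Finset.sum_congr rfl fun c hc => ?_)⟩
  exact setIntegral_congr_fun (hm c) (key c ((hmem c).1 hc))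

/-- **Integrability and the value of the integral as a sum over the cells.** -/
theorem int_of_V1 (hV : V1) {F : Form16} {X : Ext} (hX : ExtOf F X) {p q : Fin 7} (h : p ≤ q)
    (hp : p.1 ≤ q.1) (hq : q.1 ≤ 6) (σ : Bool → Equiv.Perm (Fin 7)) (e : Bool → Bool)
    {C : Fam Lg14 8} (h1 : C.IsStable) (h2 : (coordE e p q h σ).IsGlued C) :
    IntegrableOn (dens (F 8 C)) (coordE e p q h σ).base ∧
      ∫ b in (coordE e p q h σ).base, dens (F 8 C) b =
        ∑ c : Cell with c.Ok (sm e), ∫ ζ in D0.Om (sm e) c, val X hp hq σ e c ζ :=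
  int_of_V1' hV hX h hp hq σ e h1 h2 _ fun c => by simp

/-- **`Integr`.** -/
theorem integr_of (hV : V1)
    (hX : ∀ F : Form16, IsClosedForm Lg14 (8 * 2) F → ∃ X : Ext, ExtOf F X) : Integr := by
  intro F hF e p q σ hp hq
  obtain ⟨X, hX⟩ := hX F hF
  let q' : Fin 7 := ⟨q, by omega⟩
  let p' : Fin 7 := ⟨p, by omega⟩
  have h : p' ≤ q' := hp
  obtain ⟨C, h1, h2⟩ := H768.exists_isGlued (coordE e p' q' h σ) (H768.thE_loop e p q σ)
    (H768.thE_conn e σ p q)
  exact ⟨coordE e p' q' h σ, C, h1, h2, (int_of_V1 hV hX h hp hq σ e h1 h2).1⟩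

end Vale.Agent.P273.H720

end
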