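import Vale.Agent.P273.H728.ExtOf

/-!
# P273, LIM-INTEGR: the closed cells of a good region are in the domain of the region

`T` is a region with a nonempty set of gaps `T.B k` in each neck. `Cl T S p`: the gaps in `T.B` are
zero, all others have absolute value at most one (at most `1/16` for the first and the last of each
neck), the core marks are outside the discs of radius `1/32`, the marks in the chart at infinity have
absolute value at most `1/6`. If no component contains two marks of the same type, then `p` is in the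
domain of the region.
-/

noncomputable section

namespace Vale.Agent.P273.H720

open H95 H93 H728

/-! ### 95's coordinates -/

section basic

variable (R : Region)

theorem pos_neck (q : R.Sp) {j : L} {k : Fin 3} (h : R.pl j = Sum.inl k) :
    R.pos q j = ctr k + (R.XX q k (R.rk j) + R.YY q k (R.rk j)) / 2 := by
  unfold Region.pos
  split
  · rename_i k' h'
    rw [h] at h'
    cases h'
    rfl
  · rename_i s h'
    rw [h] at h'
    cases h'

theorem pos_core (q : R.Sp) {j : L} {s : Bool} (h : R.pl j = Sum.inr s) :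
    R.pos q j = q.2 ⟨j, by simp [h]⟩ := by
  unfold Region.pos
  split
  · rename_i k' h'
    rw [h] at h'
    cases h'
  · rfl

theorem sht_neck (S : L → Bool) (q : R.Sp) {j : L} {k : Fin 3} (h : R.pl j = Sum.inl k) :
    R.sht S q j = gk (R.eps q) k (R.pos q j) * (R.XX q k (R.rk j) - R.YY q k (R.rk j)) / 2 := by
  unfold Region.sht
  rw [h]

theorem sht_core (S : L → Bool) (q : R.Sp) {j : L} {s : Bool} (h : R.pl j = Sum.inr s) :
    R.sht S q j = (if s then -1 else 1) *
      (if S j then gcw (R.eps q) (R.pos q j) else gc (R.eps q) (R.pos q j)) := by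
  unfold Region.sht
  rw [h]

theorem csq_one : csq 1 = 1 := by simp [csq]

theorem gc_zero (x : ℂ) : gc 0 x = ∏ l : Fin 3, (x - ctr l) := by
  simp [gc, csq_one]

theorem gcw_zero (w : ℂ) : gcw 0 w = ∏ l : Fin 3, (1 - ctr l * w) := by
  simp [gcw, csq_one]

theorem gk_zero (k : Fin 3) (x : ℂ) : gk 0 k x * (x - ctr k) = gc 0 x := by
  rw [gc_zero]
  fin_cases k <;> simp [gk, csq_one, Fin.prod_univ_three] <;> ring

theorem ctr_sub (k l : Fin 3) (h : k ≠ l) : 2 ≤ ‖ctr k - ctr l‖ := by
  have h1 : ctr k - ctr l = ((2 * ((k : ℕ) - (l : ℕ) : ℝ) : ℝ) : ℂ) := by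
    simp [ctr]; ring
  rw [h1, Complex.norm_real, Real.norm_eq_abs]
  fin_cases k <;> fin_cases l <;> first | exact absurd rfl h | norm_num [abs_of_nonneg, abs_of_neg]

theorem norm_ctr (k : Fin 3) : ‖ctr k‖ ≤ 11 / 2 := by
  have h1 : ctr k = ((2 * (k : ℕ) + 3 / 2 : ℝ) : ℂ) := by simp [ctr]
  rw [h1, Complex.norm_real, Real.norm_eq_abs]
  fin_cases k <;> norm_num [abs_of_nonneg]

theorem same_symm {s s' : Bool} {z v z' v' : ℂ} (h : Same s z v s' z' v') :
    Same s' z' v' s z v := by
  unfold Same at *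
  by_cases hs : s = s'
  · rw [if_pos hs] at h
    rw [if_pos hs.symm]
    exact ⟨h.1.symm, h.2.symm⟩
  · rw [if_neg hs] at h
    rw [if_neg (Ne.symm hs)]
    obtain ⟨h1, h2⟩ := h
    refine ⟨by rw [mul_comm]; exact h1, ?_⟩
    rw [h2]
    calc v = v * (z * z') ^ 3 := by rw [h1]; ring
      _ = _ := by ring

end basic

/-! ### Closed cells -/

/-- The closed cell. -/
structure Cl (T : RB) (S : L → Bool) (p : (rg T).Sp) : Prop where
  zero : ∀ k (g : Fin ((rg T).n k + 1)), (g : ℕ) ∈ T.B k → p.1 ⟨k, g⟩ = 0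
  le : ∀ g, ‖p.1 g‖ ≤ 1
  fst : ∀ k, ‖p.1 ⟨k, 0⟩‖ ≤ 1 / 16
  lst : ∀ k, ‖p.1 ⟨k, Fin.last _⟩‖ ≤ 1 / 16
  near : ∀ j : (rg T).Cm, S j = false → ∀ l, 1 / 32 ≤ ‖p.2 j - ctr l‖
  far : ∀ j : (rg T).Cm, S j = true → ‖p.2 j‖ ≤ 1 / 6

variable {T : RB} {S : L → Bool} {p : (rg T).Sp}

theorem gap_ex {k : Fin 3} {b : ℕ} (hb : b ∈ T.B k) : b < (rg T).n k + 1 :=
  Nat.lt_succ_of_le (T.sub k b hb)

theorem Cl.eps_zero (h : Cl T S p) : (rg T).eps p = 0 := by
  funext k
  obtain ⟨b, hb⟩ := T.ne k
  exact Finset.prod_eq_zero (Finset.mem_univ ⟨b, gap_ex hb⟩) (h.zero k _ hb)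

theorem Cl.XX_zero (h : Cl T S p) {k : Fin 3} {i b : ℕ} (hb : b ∈ T.B k) (hi : b ≤ i) :
    (rg T).XX p k i = 0 := by
  refine Finset.prod_eq_zero (Finset.mem_univ ⟨b, gap_ex hb⟩) ?_
  rw [if_pos hi]
  exact h.zero k _ hb

theorem Cl.YY_zero (h : Cl T S p) {k : Fin 3} {i b : ℕ} (hb : b ∈ T.B k) (hi : i < b) :
    (rg T).YY p k i = 0 := by
  refine Finset.prod_eq_zero (Finset.mem_univ ⟨b, gap_ex hb⟩) ?_
  rw [if_pos hi]
  exact h.zero k _ hb

theorem norm_prod_le {n : ℕ} (f : Fin n → ℂ) (hf : ∀ g, ‖f g‖ ≤ 1) {c : ℝ} (g₀ : Fin n)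
    (h0 : ‖f g₀‖ ≤ c) : ‖∏ g, f g‖ ≤ c := by
  rw [← Finset.mul_prod_erase Finset.univ f (Finset.mem_univ g₀), norm_mul]
  calc ‖f g₀‖ * ‖∏ g ∈ Finset.univ.erase g₀, f g‖ ≤ c * 1 := by
        refine mul_le_mul h0 ?_ (norm_nonneg _) ((norm_nonneg _).trans h0)
        rw [norm_prod]
        exact Finset.prod_le_one (fun _ _ => norm_nonneg _) fun g _ => hf g
    _ = c := mul_one c

theorem Cl.XX_le (h : Cl T S p) (k : Fin 3) (i : ℕ) : ‖(rg T).XX p k i‖ ≤ 1 / 16 := by
  refine norm_prod_le _ (fun g => ?_) 0 ?_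
  · split_ifs
    · exact h.le _
    · simp
  · rw [if_pos (by simp)]
    exact h.fst k

theorem Cl.YY_le (h : Cl T S p) {k : Fin 3} {i : ℕ} (hi : i < (rg T).n k) :
    ‖(rg T).YY p k i‖ ≤ 1 / 16 := by
  refine norm_prod_le _ (fun g => ?_) (Fin.last _) ?_
  · split_ifs
    · exact h.le _
    · simp
  · rw [if_pos (by simpa using hi)]
    exact h.lst k

/-- A mark in a neck. -/
theorem Cl.neck (h : Cl T S p) {j : L} {k : Fin 3} (hj : T.pl j = Sum.inl k) :
    (rg T).pos p j = ctr k ∧ (rg T).sht S p j = 0 ∨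
    (T.comp j = Sum.inl false ∧ (rg T).sht S p j = gc 0 ((rg T).pos p j) ∨
      T.comp j = Sum.inl true ∧ (rg T).sht S p j = - gc 0 ((rg T).pos p j)) := by
  have hp := pos_neck (rg T) p (j := j) (k := k) hj
  have hs := sht_neck (rg T) S p (j := j) (k := k) hj
  rw [h.eps_zero] at hs
  have hrk : (rg T).rk j = T.rk j := rfl
  rw [hrk] at hp hs
  by_cases hX : (rg T).XX p k (T.rk j) = 0
  · by_cases hY : (rg T).YY p k (T.rk j) = 0
    · left
      rw [hX, hY] at hp hs
      exact ⟨by rw [hp]; ring, by rw [hs]; ring⟩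
    · right; right
      have hall : ∀ b ∈ T.B k, b ≤ T.rk j := fun b hb => by
        by_contra hlt
        exact hY (h.YY_zero hb (not_le.1 hlt))
      have hcnt : T.cnt k (T.rk j) = (T.B k).card := by
        unfold RB.cnt
        rw [Finset.filter_true_of_mem hall]
      have hpos : 0 < (T.B k).card := Finset.card_pos.2 (T.ne k)
      refine ⟨?_, ?_⟩
      · rw [RB.comp_neck hj, if_neg (by omega), if_pos hcnt]
      · rw [← gk_zero k, hs, hX]
        rw [hX] at hp
        have : (rg T).pos p j - ctr k = (rg T).YY p k (T.rk j) / 2 := by rw [hp]; ring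
        rw [this]; ring
  · right; left
    have hall : ∀ b ∈ T.B k, T.rk j < b := fun b hb => by
      by_contra hlt
      exact hX (h.XX_zero hb (not_lt.1 hlt))
    have hY : (rg T).YY p k (T.rk j) = 0 := by
      obtain ⟨b, hb⟩ := T.ne k
      exact h.YY_zero hb (hall b hb)
    have hcnt : T.cnt k (T.rk j) = 0 := by
      unfold RB.cnt
      rw [Finset.filter_false_of_mem fun b hb => not_le.2 (hall b hb), Finset.card_empty]
    refine ⟨?_, ?_⟩
    · rw [RB.comp_neck hj, if_pos hcnt]
    · rw [← gk_zero k, hs, hY]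
      rw [hY] at hp
      have : (rg T).pos p j - ctr k = (rg T).XX p k (T.rk j) / 2 := by rw [hp]; ring
      rw [this]; ring

theorem Cl.neck_le (h : Cl T S p) {j : L} {k : Fin 3} (hj : T.pl j = Sum.inl k) :
    ‖(rg T).pos p j - ctr k‖ ≤ 1 / 16 := by
  rw [pos_neck (rg T) p (j := j) (k := k) hj, add_sub_cancel_left, norm_div]
  have h1 := h.XX_le k ((rg T).rk j)
  have h2 := h.YY_le (k := k) (i := (rg T).rk j) (T.lt j k hj)
  have h3 := norm_add_le ((rg T).XX p k ((rg T).rk j)) ((rg T).YY p k ((rg T).rk j))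
  have h4 : ‖(2 : ℂ)‖ = 2 := by simp
  rw [h4]
  linarith

theorem gc_ne {x : ℂ} (hx : ∀ l, 1 / 32 ≤ ‖x - ctr l‖) : gc 0 x ≠ 0 := by
  rw [gc_zero, Finset.prod_ne_zero_iff]
  intro l _ h0
  have := hx l
  rw [h0, norm_zero] at this
  norm_num at this

theorem gcw_ne {w : ℂ} (hw : ‖w‖ ≤ 1 / 6) (l : Fin 3) : 1 - ctr l * w ≠ 0 := by
  intro h0
  have h1 : ctr l * w = 1 := (sub_eq_zero.1 h0).symm
  have h2 : ‖ctr l * w‖ ≤ 11 / 2 * (1 / 6) := by
    rw [norm_mul]
    exact mul_le_mul (norm_ctr l) hw (norm_nonneg _) (by norm_num)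
  rw [h1, norm_one] at h2
  norm_num at h2

theorem ne_neg_self {z : ℂ} (hz : z ≠ 0) : z ≠ -z := fun h => hz (by
  have : 2 * z = 0 := by linear_combination h
  simpa using this)

/-- The sheets of a core mark. -/
theorem Cl.core_near (h : Cl T S p) {j : L} {s : Bool} (hj : T.pl j = Sum.inr s)
    (hS : S j = false) : (∀ l, 1 / 32 ≤ ‖(rg T).pos p j - ctr l‖) ∧
      (rg T).sht S p j = (if s then -1 else 1) * gc 0 ((rg T).pos p j) := by
  refine ⟨fun l => ?_, ?_⟩
  · rw [pos_core (rg T) p (j := j) (s := s) hj]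
    exact h.near _ hS l
  · rw [sht_core (rg T) S p (j := j) (s := s) hj, h.eps_zero, hS]
    simp

theorem Cl.core_far (h : Cl T S p) {j : L} {s : Bool} (hj : T.pl j = Sum.inr s)
    (hS : S j = true) : ‖(rg T).pos p j‖ ≤ 1 / 6 ∧
      (rg T).sht S p j = (if s then -1 else 1) * gcw 0 ((rg T).pos p j) := by
  refine ⟨?_, ?_⟩
  · rw [pos_core (rg T) p (j := j) (s := s) hj]
    exact h.far _ hS
  · rw [sht_core (rg T) S p (j := j) (s := s) hj, h.eps_zero, hS]
    simp

/-- A core mark and a neck mark of different components. -/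
theorem Cl.core_neck (h : Cl T S p) (hSn : ∀ j, S j = true → (T.pl j).isRight = true) {i j : L}
    {s : Bool} {k : Fin 3} (hi : T.pl i = Sum.inr s) (hj : T.pl j = Sum.inl k)
    (hc : T.comp i ≠ T.comp j) :
    ¬ Same (S i) ((rg T).pos p i) ((rg T).sht S p i) (S j) ((rg T).pos p j)
      ((rg T).sht S p j) := by
  intro hsame
  have hSj : S j = false := by
    by_contra hcon
    have := hSn j (by simpa using hcon)
    rw [hj] at this
    simp at this
  rw [RB.comp_core hi] at hc
  cases hSi : S i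
  · obtain ⟨h1, h2⟩ := h.core_near hi hSi
    rw [hSi, hSj] at hsame
    simp only [Same, if_true] at hsame
    obtain ⟨hx, hv⟩ := hsame
    have hne := gc_ne h1
    rcases h.neck hj with ⟨h3, -⟩ | ⟨h3, h4⟩ | ⟨h3, h4⟩
    · have := h1 k
      rw [hx, h3, sub_self, norm_zero] at this
      norm_num at this
    · rw [h3] at hc
      have hs : s = true := by
        cases s
        · exact absurd rfl hc
        · rfl
      rw [h2, h4, ← hx, hs] at hv
      simp only [if_true, neg_mul, one_mul] at hv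
      exact ne_neg_self hne hv.symm
    · rw [h3] at hc
      have hs : s = false := by
        cases s
        · rfl
        · exact absurd rfl hc
      rw [h2, h4, ← hx, hs] at hv
      simp only [Bool.false_eq_true, if_false, one_mul] at hv
      exact ne_neg_self hne hv
  · obtain ⟨h1, -⟩ := h.core_far hi hSi
    rw [hSi, hSj] at hsame
    simp only [Same, Bool.true_eq_false, if_false] at hsame
    have h2 := h.neck_le hj
    have h3 : ‖(rg T).pos p j‖ ≤ 89 / 16 := by
      have := norm_add_le ((rg T).pos p j - ctr k) (ctr k)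
      rw [sub_add_cancel] at this
      have := norm_ctr k
      linarith
    have h4 : ‖(rg T).pos p i * (rg T).pos p j‖ ≤ 1 / 6 * (89 / 16) := by
      rw [norm_mul]
      exact mul_le_mul h1 h3 (norm_nonneg _) (by norm_num)
    rw [hsame.1, norm_one] at h4
    norm_num at h4

theorem mix {w x v v' : ℂ} {s : Bool} (hw : ‖w‖ ≤ 1 / 6) (hwx : w * x = 1)
    (hv : v = (if s then -1 else 1) * gcw 0 w) (hv' : v' = (if !s then -1 else 1) * gc 0 x) :
    v' ≠ v * x ^ 3 := by
  intro hvv
  have hg : gc 0 x = gcw 0 w * x ^ 3 := by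
    rw [gc_zero, gcw_zero, Fin.prod_univ_three, Fin.prod_univ_three]
    have e : ∀ l : Fin 3, x - ctr l = (1 - ctr l * w) * x := fun l => by
      linear_combination ctr l * hwx
    rw [e 0, e 1, e 2]
    ring
  have hx : x ≠ 0 := fun h0 => by rw [h0, mul_zero] at hwx; exact zero_ne_one hwx
  have hne : gcw 0 w * x ^ 3 ≠ 0 := by
    refine mul_ne_zero ?_ (pow_ne_zero _ hx)
    rw [gcw_zero, Finset.prod_ne_zero_iff]
    exact fun l _ => gcw_ne hw l
  rw [hv, hv', hg] at hvv
  cases s
  · simp only [Bool.not_false, if_true, Bool.false_eq_true, if_false, one_mul, neg_mul] at hvv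
    exact ne_neg_self hne hvv.symm
  · simp only [Bool.not_true, if_true, Bool.false_eq_true, if_false, one_mul, neg_mul] at hvv
    exact ne_neg_self hne hvv

/-- Two core marks of different components. -/
theorem Cl.core_core (h : Cl T S p) {i j : L} {s s' : Bool} (hi : T.pl i = Sum.inr s)
    (hj : T.pl j = Sum.inr s') (hc : T.comp i ≠ T.comp j) :
    ¬ Same (S i) ((rg T).pos p i) ((rg T).sht S p i) (S j) ((rg T).pos p j)
      ((rg T).sht S p j) := by
  rw [RB.comp_core hi, RB.comp_core hj] at hc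
  have hss : s' = !s := by
    revert hc
    cases s <;> cases s' <;> simp
  intro hsame
  cases hSi : S i <;> cases hSj : S j
  · obtain ⟨h1, h2⟩ := h.core_near hi hSi
    obtain ⟨h3, h4⟩ := h.core_near hj hSj
    rw [hSi, hSj] at hsame
    simp only [Same, if_true] at hsame
    obtain ⟨hx, hv⟩ := hsame
    rw [h2, h4, ← hx, hss] at hv
    cases s
    · simp only [Bool.not_false, if_true, Bool.false_eq_true, if_false, one_mul, neg_mul] at hv
      exact ne_neg_self (gc_ne h1) hv
    · simp only [Bool.not_true, if_true, Bool.false_eq_true, if_false, one_mul, neg_mul] at hv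
      exact ne_neg_self (gc_ne h1) hv.symm
  · obtain ⟨h1, h2⟩ := h.core_near hi hSi
    obtain ⟨h3, h4⟩ := h.core_far hj hSj
    have h5 := (same_symm hsame)
    rw [hSi, hSj] at h5
    simp only [Same, Bool.true_eq_false, if_false] at h5
    rw [hss] at h4
    exact mix h3 h5.1 h4 (by rw [Bool.not_not]; exact h2) h5.2
  · obtain ⟨h1, h2⟩ := h.core_far hi hSi
    obtain ⟨h3, h4⟩ := h.core_near hj hSj
    rw [hSi, hSj] at hsame
    simp only [Same, Bool.true_eq_false, if_false] at hsame
    rw [hss] at h4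
    exact mix h1 hsame.1 h2 h4 hsame.2
  · obtain ⟨h1, h2⟩ := h.core_far hi hSi
    obtain ⟨h3, h4⟩ := h.core_far hj hSj
    rw [hSi, hSj] at hsame
    simp only [Same, if_true] at hsame
    obtain ⟨hx, hv⟩ := hsame
    have hne : gcw 0 ((rg T).pos p i) ≠ 0 := by
      rw [gcw_zero, Finset.prod_ne_zero_iff]
      exact fun l _ => gcw_ne h1 l
    rw [h2, h4, ← hx, hss] at hv
    cases s
    · simp only [Bool.not_false, if_true, Bool.false_eq_true, if_false, one_mul, neg_mul] at hv
      exact ne_neg_self hne hv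
    · simp only [Bool.not_true, if_true, Bool.false_eq_true, if_false, one_mul, neg_mul] at hv
      exact ne_neg_self hne hv.symm

/-- **The closed cells are in the domain of the region.** -/
theorem Cl.mem_dom (h : Cl T S p) (hSn : ∀ j, S j = true → (T.pl j).isRight = true)
    (hT : ∀ x y : L, x.2 = y.2 → T.comp x = T.comp y → x = y) : p ∈ (rg T).dom S := by
  refine ⟨fun k => ?_, fun j k hj => ⟨?_, ?_⟩, fun j s hj l => ?_, fun i j hij hty hnk => ?_,
    fun i j k hi hj hty hlt => ?_⟩
  · rw [h.eps_zero]; simp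
  · have := h.XX_le k ((rg T).rk j); linarith
  · have := h.YY_le (k := k) (i := (rg T).rk j) (T.lt j k hj); linarith
  · rw [h.eps_zero]
    cases hS : S j
    · simp only [Bool.false_eq_true, if_false, Pi.zero_apply, norm_zero]
      have := (h.core_near hj hS).1 l
      positivity
    · simp only [if_true, Pi.zero_apply, zero_mul, norm_zero]
      have := gcw_ne (h.core_far hj hS).1 l
      have := norm_pos_iff.2 this
      positivity
  · have hc : T.comp i ≠ T.comp j := fun hc => hij (hT i j hty hc)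
    rcases hi : T.pl i with k | s <;> rcases hj : T.pl j with k' | s'
    · intro hsame
      have hkk : k ≠ k' := fun hk => hnk k ⟨hi, by rw [hk]; exact hj⟩
      have hSi : S i = false := by
        by_contra hcon
        have := hSn i (by simpa using hcon)
        rw [hi] at this
        simp at this
      have hSj : S j = false := by
        by_contra hcon
        have := hSn j (by simpa using hcon)
        rw [hj] at this
        simp at this
      rw [hSi, hSj] at hsame
      simp only [Same, if_true] at hsame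
      have h1 := h.neck_le hi
      have h2 := h.neck_le hj
      have h3 := ctr_sub k k' hkk
      have h4 : ctr k - ctr k' = ((rg T).pos p j - ctr k') - ((rg T).pos p i - ctr k) := by
        rw [hsame.1]; ring
      rw [h4] at h3
      have h5 := norm_sub_le ((rg T).pos p j - ctr k') ((rg T).pos p i - ctr k)
      linarith
    · intro hsame
      exact h.core_neck hSn hj hi hc.symm (same_symm hsame)
    · exact h.core_neck hSn hi hj hc
    · exact h.core_core hi hj hc
  · have hc : T.comp i ≠ T.comp j := fun hc => by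
      have := hT i j hty hc
      rw [this] at hlt
      exact lt_irrefl _ hlt
    have hlt' : T.rk i < T.rk j := hlt
    obtain ⟨b, hb, hb1, hb2⟩ : ∃ b ∈ T.B k, T.rk i < b ∧ b ≤ T.rk j := by
      by_contra hcon
      apply hc
      rw [RB.comp_neck hi, RB.comp_neck hj, RB.cnt_eq hlt'.le fun b hb => ?_]
      by_contra h'
      rw [not_or, not_le, not_lt] at h'
      exact hcon ⟨b, hb, h'.1, h'.2⟩
    have h0 : (∏ g : Fin ((rg T).n k + 1), (if (rg T).rk i < (g : ℕ) ∧ (g : ℕ) ≤ (rg T).rk j
        then p.1 ⟨k, g⟩ else 1)) = 0 := by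
      refine Finset.prod_eq_zero (Finset.mem_univ ⟨b, gap_ex hb⟩) ?_
      rw [if_pos ⟨hb1, hb2⟩]
      exact h.zero k _ hb
    rw [h0]
    exact zero_ne_one

end Vale.Agent.P273.H720

end
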