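import Vale.Agent.P273.H562.RegDefs

/-!
# P273, LIM step 5 (D): the domains converge to the limit domain outside of the exceptional set
-/

noncomputable section

namespace Vale.Agent.P273.H720

open Set Filter MeasureTheory H95 H732 H573 H562
open scoped Topology

/-! ### The necks in the plane of a core -/

/-- For small `ε` the part of the plane covered by the neck is the disc, away from its circle. -/
theorem ell_iff {e ε x : ℂ} {c : ℝ} (h : √‖ε‖ < |2 * ‖x - e‖ - c|) (hc : √‖ε‖ < c) :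
    x ∈ H852.ell e ε c ↔ 2 * ‖x - e‖ < c := by
  have hr0 : 0 ≤ √‖ε‖ := Real.sqrt_nonneg _
  have hr2 : √‖ε‖ * √‖ε‖ = ‖ε‖ := Real.mul_self_sqrt (norm_nonneg _)
  have key : ∀ U V : ℂ, U * V = ε → ‖U‖ ≤ √‖ε‖ ∨ ‖V‖ ≤ √‖ε‖ := by
    intro U V hUV
    by_contra hcon
    rw [not_or, not_le, not_le] at hcon
    have h1 : ‖U‖ * ‖V‖ = ‖ε‖ := by rw [← norm_mul, hUV]
    have h2 : √‖ε‖ * √‖ε‖ < ‖U‖ * ‖V‖ :=
      mul_lt_mul'' hcon.1 hcon.2 hr0 hr0
    rw [h1, hr2] at h2
    exact lt_irrefl _ h2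
  have hd : ‖2 * (x - e)‖ = 2 * ‖x - e‖ := by rw [norm_mul]; simp
  constructor
  · rintro ⟨U, V, hUV, hs, hU, hV⟩
    have h1 : 2 * ‖x - e‖ < √‖ε‖ + c := by
      rw [← hd, ← hs]
      rcases key U V hUV with h2 | h2
      · linarith [norm_add_le U V]
      · linarith [norm_add_le U V]
    by_contra hcon
    rw [abs_of_nonneg (by linarith)] at h
    linarith
  · intro hx
    rw [abs_of_neg (by linarith)] at h
    obtain ⟨s, hs⟩ := IsAlgClosed.exists_pow_nat_eq ((2 * (x - e)) ^ 2 - 4 * ε) (n := 2) (by norm_num)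
    have hUV : ((2 * (x - e) + s) / 2) * ((2 * (x - e) - s) / 2) = ε := by
      have : ((2 * (x - e) + s) / 2) * ((2 * (x - e) - s) / 2) =
          ((2 * (x - e)) ^ 2 - s ^ 2) / 4 := by ring
      rw [this, hs]; ring
    have hadd : (2 * (x - e) + s) / 2 + (2 * (x - e) - s) / 2 = 2 * (x - e) := by ring
    have fin : ∀ U V : ℂ, U + V = 2 * (x - e) → ‖U‖ ≤ √‖ε‖ → ‖U‖ < c ∧ ‖V‖ < c := by
      intro U V hs' hU
      refine ⟨by linarith, ?_⟩
      have h3 : V = 2 * (x - e) - U := by rw [← hs']; ring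
      rw [h3]
      have := norm_sub_le (2 * (x - e)) U
      rw [hd] at this
      linarith
    rcases key _ _ hUV with h2 | h2
    · exact ⟨_, _, hUV, hadd, (fin _ _ hadd h2).1, (fin _ _ hadd h2).2⟩
    · have h4 := fin _ _ ((add_comm _ _).trans hadd) h2
      exact ⟨_, _, hUV, hadd, h4.2, h4.1⟩

theorem norm_epsL (y α : Fin 3 → ℝ) (k : Fin 3) :
    ‖epsL y α k‖ = (1 / 16) ^ 2 * Real.exp (-y k) := by
  unfold epsL
  rw [norm_mul, Complex.norm_exp]
  congr 1
  · norm_num
  · congr 1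
    simp

theorem tendsto_sqrt_epsL {y : Fin 3 → ℝ} (α : Fin 3 → ℝ) {k : Fin 3} (hy : 0 < y k) :
    Tendsto (fun N : ℝ => √‖epsL (fun k => N * y k) α k‖) atTop (𝓝 0) := by
  have h1 : Tendsto (fun N : ℝ => (1 / 16 : ℝ) ^ 2 * Real.exp (-(N * y k))) atTop (𝓝 0) := by
    have h2 : Tendsto (fun N : ℝ => Real.exp (-(N * y k))) atTop (𝓝 0) :=
      Real.tendsto_exp_neg_atTop_nhds_zero.comp (tendsto_id.atTop_mul_const hy)
    have h3 := h2.const_mul ((1 / 16 : ℝ) ^ 2)
    rw [mul_zero] at h3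
    exact h3
  have h3 := h1.sqrt
  rw [Real.sqrt_zero] at h3
  refine h3.congr fun N => ?_
  rw [norm_epsL]

/-- The zones converge. -/
theorem zone_iff {y α : Fin 3 → ℝ} (hy : ∀ k, 0 < y k) (far : Bool) {x : ℂ}
    (hx : ∀ k, ‖x - ctr k‖ ≠ 1 / 32) :
    ∀ᶠ N : ℝ in atTop, x ∈ zone (fun k => N * y k) α far ↔ x ∈ zone0 far := by
  cases far
  · have h1 : ∀ k, ∀ᶠ N : ℝ in atTop,
        (x ∈ H852.ell (ctr k) (epsL (fun k => N * y k) α k) (1 / 16) ↔
          2 * ‖x - ctr k‖ < 1 / 16) := by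
      intro k
      have h2 : 0 < |2 * ‖x - ctr k‖ - 1 / 16| := by
        refine abs_pos.2 fun h => hx k ?_
        linarith
      have h3 := (tendsto_sqrt_epsL α (hy k)).eventually_lt_const h2
      have h4 := (tendsto_sqrt_epsL α (hy k)).eventually_lt_const
        (show (0 : ℝ) < 1 / 16 by norm_num)
      filter_upwards [h3, h4] with N h5 h6
      exact ell_iff h5 h6
    filter_upwards [eventually_all.2 h1] with N hN
    unfold zone zone0
    simp only [Bool.false_eq_true, if_false, mem_ofPred_eq]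
    refine and_congr_right fun _ => forall_congr' fun k => ?_
    rw [hN k, not_lt]
    constructor <;> intro h <;> linarith
  · exact Eventually.of_forall fun N => Iff.rfl

/-! ### The sizes -/

section sizes

variable (R : Region) (m : ∀ k, Fin (R.n k + 1))

open Classical in
theorem szl_last (B : Set (W R m).Fr) (p : Co R m) (k : Fin 3) :
    szl R m B p ((W R m).last k) =
      p.2.2.1 k - ∑ f : (W R m).Fr, if f ∈ B ∧ (W R m).nk f.1 = k then p.1 f else 0 := by
  have h : ¬ ((W R m).last k ≠ (W R m).last ((W R m).nk ((W R m).last k))) :=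
    not_not.2 rfl
  unfold szl
  rw [dif_neg h]
  change p.2.2.1 k - _ = _
  congr 1
  refine Finset.sum_congr rfl fun f _ => ?_
  have h2 : ((W R m).nk f.1 = (W R m).nk ((W R m).last k) ∧ f ∈ B) ↔
      (f ∈ B ∧ (W R m).nk f.1 = k) := and_comm
  by_cases h3 : f ∈ B ∧ (W R m).nk f.1 = k
  · rw [if_pos h3, if_pos (h2.2 h3)]
  · rw [if_neg h3, if_neg (fun h => h3 (h2.1 h))]

open Classical in
/-- The sum of the clean gaps of a neck. -/
def tS (B : Set (W R m).Fr) (p : Co R m) (k : Fin 3) : ℝ :=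
  ∑ f : (W R m).Fr, if f ∉ B ∧ (W R m).nk f.1 = k then p.1 f else 0

theorem ul_dpt_szl (B : Set (W R m).Fr) (N : ℝ) (p : Co R m) (k : Fin 3) :
    (W R m).ul ((W R m).dpt B N p) k =
      N * szl R m B p ((W R m).last k) - tS R m B p k := by
  rw [Reg.ul_dpt, szl_last]
  rfl

theorem szl_pos {B : Set (W R m).Fr} {p : Co R m} {k : Fin 3} (hy : 0 < p.2.2.1 k)
    (h1 : ∀ f ∈ B, 0 < p.1 f)
    (h2 : ∀ f ∈ B, p.1 f < szl R m B p ((W R m).last ((W R m).nk f.1))) :
    0 < szl R m B p ((W R m).last k) := by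
  by_cases hk : ∃ f ∈ B, (W R m).nk f.1 = k
  · obtain ⟨f, hf, rfl⟩ := hk
    exact (h1 f hf).trans (h2 f hf)
  · rw [szl_last, Finset.sum_eq_zero]
    · simpa using hy
    · intro f _
      refine if_neg ?_
      rintro ⟨hf, hfk⟩
      exact hk ⟨f, hf, hfk⟩

end sizes

/-- **(D)** -/
theorem domLim : DomLim := by
  intro R m far B y α hy _ x hB hE
  classical
  have hE1 : ∀ f, x.1.1 f ≠ 0 := fun f h => hE (Or.inl ⟨f, h⟩)
  have hE3 : ∀ c k, ‖x.2 c - ctr k‖ ≠ 1 / 32 := fun c k h =>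
    hE (Or.inr (Or.inr (Or.inr (Or.inr ⟨c, k, h⟩))))
  -- the limit size of the last gap and the sum of the clean gaps
  set p : Co R m := mk R m y α x with hp
  set s : Fin 3 → ℝ := fun k => szl R m (↑B) p ((W R m).last k) with hs
  have hE2 : ∀ f ∈ B, x.1.1 f ≠ s ((W R m).nk f.1) := fun f hf h =>
    hE (Or.inr (Or.inl ⟨f, hf, h⟩))
  set t : Fin 3 → ℝ := fun k => tS R m (↑B) p k with ht
  have hul : ∀ (N : ℝ) k, (W R m).ul ((W R m).dpt (↑B) N p) k = N * s k - t k := fun N k =>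
    ul_dpt_szl R m (↑B) N p k
  have hmk : ∀ N : ℝ, mk R m (fun k => N * y k) α
      ((((W R m).dpt (↑B) N p).1, x.1.2), x.2) = (W R m).dpt (↑B) N p := fun N => rfl
  have hd : ∀ (N : ℝ) f, ((W R m).dpt (↑B) N p).1 f = if f ∈ B then N * x.1.1 f else x.1.1 f := by
    intro N f
    unfold Reg.dpt
    simp only
    by_cases hf : f ∈ B
    · rw [if_pos hf, if_pos (show f ∈ (↑B : Set (W R m).Fr) from Finset.mem_coe.2 hf)]
      rfl
    · rw [if_neg hf, if_neg (show ¬ f ∈ (↑B : Set (W R m).Fr) from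
        fun h => hf (Finset.mem_coe.1 h))]
      rfl
  have hdomF : ∀ N : ℝ, ((((W R m).dpt (↑B) N p).1, x.1.2), x.2) ∈
      domF R m far (fun k => N * y k) α ↔
      (∀ f, 0 < (if f ∈ B then N * x.1.1 f else x.1.1 f) ∧
        (if f ∈ B then N * x.1.1 f else x.1.1 f) <
          N * s ((W R m).nk f.1) - t ((W R m).nk f.1)) ∧
      (∀ f, x.1.2 f ∈ Ioc (-Real.pi) Real.pi) ∧
      ∀ c, x.2 c ∈ zone (fun k => N * y k) α (far c) := by
    intro N
    change ((∀ f, 0 < ((W R m).dpt (↑B) N p).1 f ∧ ((W R m).dpt (↑B) N p).1 f <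
      (W R m).ul (mk R m (fun k => N * y k) α ((((W R m).dpt (↑B) N p).1, x.1.2), x.2))
        ((W R m).nk f.1)) ∧ _ ∧ _) ↔ _
    simp only [hmk, hul, hd]
  have hdomL : x ∈ domL R m far B y ↔ (∀ f, 0 < x.1.1 f) ∧
      (∀ f ∈ B, x.1.1 f < s ((W R m).nk f.1)) ∧ (∀ f, x.1.2 f ∈ Ioc (-Real.pi) Real.pi) ∧
      ∀ c, x.2 c ∈ zone0 (far c) := Iff.rfl
  have hz : ∀ᶠ N : ℝ in atTop, ∀ c, x.2 c ∈ zone (fun k => N * y k) α (far c) ↔
      x.2 c ∈ zone0 (far c) :=
    eventually_all.2 fun c => zone_iff hy (far c) (hE3 c)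
  -- comparison of a multiple of `N` with a constant
  have hbig : ∀ a b : ℝ, 0 < a → ∀ᶠ N : ℝ in atTop, b < N * a := fun a b ha =>
    (tendsto_id.atTop_mul_const ha).eventually_gt_atTop b
  by_cases hL : x ∈ domL R m far B y
  · obtain ⟨h1, h2, h3, h4⟩ := hdomL.1 hL
    have hspos : ∀ k, 0 < s k := fun k =>
      szl_pos R m (hy k) (fun f _ => h1 f) fun f hf => h2 f (Finset.mem_coe.1 hf)
    have h5 : ∀ f, ∀ᶠ N : ℝ in atTop, (if f ∈ B then N * x.1.1 f else x.1.1 f) <
        N * s ((W R m).nk f.1) - t ((W R m).nk f.1) := by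
      intro f
      by_cases hf : f ∈ B
      · filter_upwards [hbig (s ((W R m).nk f.1) - x.1.1 f) (t ((W R m).nk f.1))
          (by linarith [h2 f hf])] with N hN
        rw [if_pos hf]
        have : N * (s ((W R m).nk f.1) - x.1.1 f) = N * s ((W R m).nk f.1) - N * x.1.1 f := by ring
        linarith
      · filter_upwards [hbig (s ((W R m).nk f.1)) (t ((W R m).nk f.1) + x.1.1 f)
          (hspos _)] with N hN
        rw [if_neg hf]
        linarith
    filter_upwards [eventually_all.2 h5, hz, eventually_gt_atTop (0 : ℝ)] with N hN hzN hN0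
    rw [hdomF]
    refine ⟨fun _ => hL, fun _ => ⟨fun f => ⟨?_, hN f⟩, h3, fun c => (hzN c).2 (h4 c)⟩⟩
    split_ifs
    · exact mul_pos hN0 (h1 f)
    · exact h1 f
  · -- a condition of the limit domain fails
    rw [hdomL] at hL
    have h6 : ∀ᶠ N : ℝ in atTop, ¬ ((((W R m).dpt (↑B) N p).1, x.1.2), x.2) ∈
        domF R m far (fun k => N * y k) α := by
      by_cases h1 : ∀ f, 0 < x.1.1 f
      · by_cases h2 : ∀ f ∈ B, x.1.1 f < s ((W R m).nk f.1)
        · by_cases h3 : ∀ f, x.1.2 f ∈ Ioc (-Real.pi) Real.pi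
          · have h4 : ¬ ∀ c, x.2 c ∈ zone0 (far c) := fun h4 => hL ⟨h1, h2, h3, h4⟩
            filter_upwards [hz] with N hzN
            rw [hdomF]
            rintro ⟨-, -, h5⟩
            exact h4 fun c => (hzN c).1 (h5 c)
          · refine Eventually.of_forall fun N => ?_
            rw [hdomF]
            rintro ⟨-, h5, -⟩
            exact h3 h5
        · push Not at h2
          obtain ⟨f, hf, h2⟩ := h2
          have h7 : s ((W R m).nk f.1) < x.1.1 f := lt_of_le_of_ne h2 (hE2 f hf).symm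
          filter_upwards [hbig (x.1.1 f - s ((W R m).nk f.1)) (-t ((W R m).nk f.1))
            (by linarith)] with N hN
          rw [hdomF]
          rintro ⟨h5, -, -⟩
          have h8 := (h5 f).2
          rw [if_pos hf] at h8
          have : N * (x.1.1 f - s ((W R m).nk f.1)) =
            N * x.1.1 f - N * s ((W R m).nk f.1) := by ring
          linarith
      · push Not at h1
        obtain ⟨f, h1⟩ := h1
        filter_upwards [eventually_gt_atTop (0 : ℝ)] with N hN
        rw [hdomF]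
        rintro ⟨h5, -, -⟩
        have h8 := (h5 f).1
        split_ifs at h8
        · have := mul_nonpos_of_nonneg_of_nonpos hN.le h1
          linarith
        · linarith
    filter_upwards [h6] with N hN
    rw [hdomL]
    exact ⟨fun h => absurd h hN, fun h => absurd h hL⟩

end Vale.Agent.P273.H720

end
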