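import Vale.Agent.P273.H183.Fam
import Vale.Agent.P273.H793.Frame

/-!
# P273, LIM-INTEGR: the density of a pull-back

The density of a form of top degree pulled back along a map which is complex differentiable is
multiplied by the square of the absolute value of the complex determinant.
-/

noncomputable section

namespace Vale.Agent.P273.H720

open Set H183 H793

variable {m : ℕ}

/-- The real frame of `ℂ^m` used in `dens`. -/
def fra (m : ℕ) (a : Fin (m * 2)) : Fin m → ℂ :=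
  Pi.single a.divNat (if a.modNat = 0 then 1 else Complex.I)

theorem dens_eq (F : (Fin m → ℂ) → (Fin m → ℂ) [⋀^Fin (m * 2)]→L[ℝ] ℝ) (b : Fin m → ℂ) :
    dens F b = F b (fra m) := rfl

/-- The frame as a basis. -/
def frb (m : ℕ) : Module.Basis (Fin (m * 2)) ℝ (Fin m → ℂ) :=
  (rb (Fin m)).reindex finProdFinEquiv

theorem frb_apply (a : Fin (m * 2)) : frb m a = fra m a := by
  rw [frb, Module.Basis.reindex_apply, finProdFinEquiv_symm_apply, rb_apply]
  rfl

theorem frb_eq : ⇑(frb m) = fra m := funext frb_apply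

/-- A real linear map acts on forms of top degree by its determinant. -/
theorem top_map (f : (Fin m → ℂ) [⋀^Fin (m * 2)]→L[ℝ] ℝ) (T : (Fin m → ℂ) →L[ℝ] (Fin m → ℂ)) :
    f (fun a => T (fra m a)) = LinearMap.det (T : (Fin m → ℂ) →ₗ[ℝ] (Fin m → ℂ)) * f (fra m) := by
  have := top_comp (frb m) f.toAlternatingMap (T : (Fin m → ℂ) →ₗ[ℝ] (Fin m → ℂ)) (fra m)
  simpa using this

/-- **The density of a pull-back**, real version. -/
theorem dens_pull_real (F G : (Fin m → ℂ) → (Fin m → ℂ) [⋀^Fin (m * 2)]→L[ℝ] ℝ)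
    (κ : (Fin m → ℂ) → (Fin m → ℂ)) (z : Fin m → ℂ) (T : (Fin m → ℂ) →L[ℝ] (Fin m → ℂ))
    (h : G z = (F (κ z)).compContinuousLinearMap T) :
    dens G z = LinearMap.det (T : (Fin m → ℂ) →ₗ[ℝ] (Fin m → ℂ)) * dens F (κ z) := by
  rw [dens_eq, dens_eq, h, ← top_map]
  rfl

/-- The determinant of a complex linear map as a real one. -/
theorem det_restrict (A : (Fin m → ℂ) →L[ℂ] (Fin m → ℂ)) :
    LinearMap.det ((A.restrictScalars ℝ : (Fin m → ℂ) →L[ℝ] (Fin m → ℂ)) :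
      (Fin m → ℂ) →ₗ[ℝ] (Fin m → ℂ)) = ‖LinearMap.det (A : (Fin m → ℂ) →ₗ[ℂ] (Fin m → ℂ))‖ ^ 2 :=
  det_real (Fin m) (A : (Fin m → ℂ) →ₗ[ℂ] (Fin m → ℂ))

/-- **The density of a pull-back** along a holomorphic map. -/
theorem dens_pull (F G : (Fin m → ℂ) → (Fin m → ℂ) [⋀^Fin (m * 2)]→L[ℝ] ℝ)
    (κ : (Fin m → ℂ) → (Fin m → ℂ)) (z : Fin m → ℂ) (A : (Fin m → ℂ) →L[ℂ] (Fin m → ℂ))
    (hκ : HasFDerivAt κ A z)
    (h : G z = (F (κ z)).compContinuousLinearMap (fderiv ℝ κ z)) :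
    dens G z = ‖LinearMap.det (A : (Fin m → ℂ) →ₗ[ℂ] (Fin m → ℂ))‖ ^ 2 * dens F (κ z) := by
  rw [dens_pull_real F G κ z _ h, (hκ.restrictScalars ℝ).fderiv, det_restrict]

/-- Continuity of the density. -/
theorem continuousOn_dens {F : (Fin m → ℂ) → (Fin m → ℂ) [⋀^Fin (m * 2)]→L[ℝ] ℝ}
    {s : Set (Fin m → ℂ)} (h : ContinuousOn F s) : ContinuousOn (dens F) s :=
  (ContinuousAlternatingMap.apply ℝ (Fin m → ℂ) ℝ (fra m)).continuous.comp_continuousOn h

end Vale.Agent.P273.H720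

end
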