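import Vale.Agent.P273.H720.Dom
import Vale.Agent.P273.H720.Dens

/-!
# P273, LIM-INTEGR: the cell integrands are continuous and bounded on the closed cells
-/

noncomputable section

namespace Vale.Agent.P273.H720

open Set MeasureTheory H95 H93 H728 H183

variable {T : RB} {S : Mk → Bool}

/-- The form of a region pulled back along a map to the region. -/
def pl (X : Ext) (T : RB) (S : Mk → Bool) {N : ℕ} (ι : (Fin N → ℂ) → (rg T).Sp)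
    (ζ : Fin N → ℂ) : (Fin N → ℂ) [⋀^Fin 16]→L[ℝ] ℝ :=
  (X.H (rg T) S (ι ζ)).compContinuousLinearMap (fderiv ℝ ι ζ)

theorem continuousOn_pl (X : Ext) (hSn : ∀ x, S x = true → (T.pl x).isRight = true) {N : ℕ}
    {ι : (Fin N → ℂ) → (rg T).Sp} (hι : ContDiff ℝ 1 ι) {K : Set (Fin N → ℂ)}
    (hK : ∀ ζ ∈ K, ι ζ ∈ (rg T).dom S) (v : Fin 16 → Fin N → ℂ) :
    ContinuousOn (fun ζ => pl X T S ι ζ v) K := by
  have h1 : ContinuousOn (X.H (rg T) S) ((rg T).dom S) := (X.hreg (rg T) S hSn).1.continuousOn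
  have h2 : ContinuousOn (fun ζ => X.H (rg T) S (ι ζ)) K :=
    h1.comp hι.continuous.continuousOn hK
  have h3 : Continuous fun ζ => fun i => fderiv ℝ ι ζ (v i) :=
    continuous_pi fun i => (hι.continuous_fderiv one_ne_zero).clm_apply continuous_const
  exact h2.eval h3.continuousOn

/-- **The cell integrand is bounded on a compact closed cell.** -/
theorem bounded_pl (X : Ext) (hSn : ∀ x, S x = true → (T.pl x).isRight = true)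
    (hT : ∀ x y : Mk, x.2 = y.2 → T.comp x = T.comp y → x = y) {N : ℕ}
    {ι : (Fin N → ℂ) → (rg T).Sp} (hι : ContDiff ℝ 1 ι) {K : Set (Fin N → ℂ)} (hKc : IsCompact K)
    (hK : ∀ ζ ∈ K, Cl T S (ι ζ)) (v : Fin 16 → Fin N → ℂ) :
    ∃ C : ℝ, ∀ ζ ∈ K, ‖pl X T S ι ζ v‖ ≤ C :=
  hKc.exists_bound_of_continuousOn
    (continuousOn_pl X hSn hι (fun ζ hζ => (hK ζ hζ).mem_dom hSn hT) v)

/-- **The cell integrand is integrable on a compact closed cell.** -/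
theorem integrableOn_pl (X : Ext) (hSn : ∀ x, S x = true → (T.pl x).isRight = true)
    (hT : ∀ x y : Mk, x.2 = y.2 → T.comp x = T.comp y → x = y) {N : ℕ}
    {ι : (Fin N → ℂ) → (rg T).Sp} (hι : ContDiff ℝ 1 ι) {K : Set (Fin N → ℂ)} (hKc : IsCompact K)
    (hK : ∀ ζ ∈ K, Cl T S (ι ζ)) (v : Fin 16 → Fin N → ℂ) :
    IntegrableOn (fun ζ => pl X T S ι ζ v) K :=
  (continuousOn_pl X hSn hι (fun ζ hζ => (hK ζ hζ).mem_dom hSn hT) v).integrableOn_compact hKc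

/-- **The link with the family of the stratum.** If `G` is the pull-back of the form of the region
along `φ` on an open set `U`, and `κ` is a holomorphic map from the cell to `U` with `φ (κ ζ) = ι ζ`,
then the density of `G` at `κ ζ` times the Jacobian is the cell integrand. -/
theorem det_smul_dens (X : Ext) {ι : (Fin 8 → ℂ) → (rg T).Sp}
    {G : (Fin 8 → ℂ) → (Fin 8 → ℂ) [⋀^Fin (8 * 2)]→L[ℝ] ℝ}
    {U Ω : Set (Fin 8 → ℂ)} (hΩ : IsOpen Ω) {φ : (Fin 8 → ℂ) → (rg T).Sp}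
    (hφ : ∀ b ∈ U, DifferentiableAt ℝ φ b)
    (hG : ∀ b ∈ U, G b = (X.H (rg T) S (φ b)).compContinuousLinearMap (fderiv ℝ φ b))
    {κ : (Fin 8 → ℂ) → Fin 8 → ℂ} {A : (Fin 8 → ℂ) → ((Fin 8 → ℂ) →L[ℂ] (Fin 8 → ℂ))}
    (hκ : ∀ ζ ∈ Ω, HasFDerivAt κ (A ζ) ζ) (hκU : MapsTo κ Ω U)
    (hι : ∀ ζ ∈ Ω, φ (κ ζ) = ι ζ) {ζ : Fin 8 → ℂ} (hζ : ζ ∈ Ω) :
    ‖LinearMap.det (A ζ : (Fin 8 → ℂ) →ₗ[ℂ] (Fin 8 → ℂ))‖ ^ 2 * dens G (κ ζ) =
      pl X T S ι ζ (fra 8) := by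
  have h1 : HasFDerivAt κ ((A ζ).restrictScalars ℝ) ζ := (hκ ζ hζ).restrictScalars ℝ
  have h2 : fderiv ℝ ι ζ = (fderiv ℝ φ (κ ζ)).comp (fderiv ℝ κ ζ) := by
    have h3 : ι =ᶠ[nhds ζ] φ ∘ κ :=
      Filter.eventually_of_mem (hΩ.mem_nhds hζ) fun ζ' hζ' => (hι ζ' hζ').symm
    rw [h3.fderiv_eq]
    exact fderiv_comp ζ (hφ _ (hκU hζ)) h1.differentiableAt
  have h4 := dens_pull G (fun ζ => (G (κ ζ)).compContinuousLinearMap (fderiv ℝ κ ζ)) κ ζ (A ζ)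
    (hκ ζ hζ) rfl
  rw [← h4, dens_eq]
  change (G (κ ζ)) (fun i => fderiv ℝ κ ζ (fra 8 i)) = _
  rw [hG _ (hκU hζ), hι ζ hζ]
  change (X.H (rg T) S (ι ζ)) (fun i => fderiv ℝ φ (κ ζ) (fderiv ℝ κ ζ (fra 8 i))) =
    (X.H (rg T) S (ι ζ)) (fun i => fderiv ℝ ι ζ (fra 8 i))
  rw [h2]
  rfl

/-- **Integrability in one cell.** -/
theorem integrableOn_cell (X : Ext) (hSn : ∀ x, S x = true → (T.pl x).isRight = true)
    (hT : ∀ x y : Mk, x.2 = y.2 → T.comp x = T.comp y → x = y)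
    {ι : (Fin 8 → ℂ) → (rg T).Sp} (hιc : ContDiff ℝ 1 ι)
    {G : (Fin 8 → ℂ) → (Fin 8 → ℂ) [⋀^Fin (8 * 2)]→L[ℝ] ℝ}
    {U Ω K : Set (Fin 8 → ℂ)} (hΩ : IsOpen Ω) (hΩK : Ω ⊆ K) (hKc : IsCompact K)
    (hK : ∀ ζ ∈ K, Cl T S (ι ζ)) {φ : (Fin 8 → ℂ) → (rg T).Sp}
    (hφ : ∀ b ∈ U, DifferentiableAt ℝ φ b)
    (hG : ∀ b ∈ U, G b = (X.H (rg T) S (φ b)).compContinuousLinearMap (fderiv ℝ φ b))
    {κ : (Fin 8 → ℂ) → Fin 8 → ℂ} {A : (Fin 8 → ℂ) → ((Fin 8 → ℂ) →L[ℂ] (Fin 8 → ℂ))}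
    (hκ : ∀ ζ ∈ Ω, HasFDerivAt κ (A ζ) ζ) (hκU : MapsTo κ Ω U)
    (hι : ∀ ζ ∈ Ω, φ (κ ζ) = ι ζ) :
    IntegrableOn (fun ζ => ‖LinearMap.det (A ζ : (Fin 8 → ℂ) →ₗ[ℂ] (Fin 8 → ℂ))‖ ^ 2 *
      dens G (κ ζ)) Ω := by
  refine ((integrableOn_pl X hSn hT hιc hKc hK (fra 8)).mono_set hΩK).congr_fun
    (fun ζ hζ => ?_) hΩ.measurableSet
  exact (det_smul_dens X hΩ hφ hG hκ hκU hι hζ).symm

end Vale.Agent.P273.H720

end
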