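import Vale.Agent.P273.H720.Dom
import Vale.Agent.P273.H728.Iota

/-!
# P273, LIM-INTEGR: the closed cells are in the domain of the region, integrability of the cell
integrand
-/

noncomputable section

namespace Vale.Agent.P273.H720

open Set MeasureTheory H95 H728
open H93 hiding Cell

variable {p q : ℕ} (hp : p ≤ q) (hq : q ≤ 6) (σ : Bool → Equiv.Perm (Fin 7)) (e : Bool → Bool)
  (c : Cell)

/-- Far marks are core marks. -/
theorem farOk : H732.FarOk (rg (Tc hp hq σ e c)) (Sc σ c) := by
  intro x hx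
  have h1 : σ x.2 x.1 = 6 ∧ c.loc x.2 = Sum.inl true := by simpa [Sc] using hx
  have h2 : c.lo x.2 = none := by rw [Cell.lo, h1.2]; rfl
  change (pl0 p q e c.lo (σ x.2 x.1) x.2).isRight = true
  rw [h1.1, pl0_none (by decide) h2]
  rfl

theorem invR_le : D0.R⁻¹ ≤ 1 / 6 := by norm_num [D0]

/-- The closed zones. -/
def cz : Zone → Set ℂ
  | .inl false => Metric.closedBall 0 D0.R ∩ ⋂ k : Fin 3, {x | 1 / 32 ≤ ‖x - ctr k‖}
  | .inl true => Metric.closedBall 0 D0.R⁻¹
  | .inr _ => Metric.closedBall 0 1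

theorem isCompact_cz (z : Zone) : IsCompact (cz z) := by
  rcases z with (_ | _) | k
  · refine (isCompact_closedBall _ _).inter_right (isClosed_iInter fun k => ?_)
    exact isClosed_le continuous_const (continuous_id.sub continuous_const).norm
  · exact isCompact_closedBall _ _
  · exact isCompact_closedBall _ _

theorem dom_subset_cz (z : Zone) : D0.dom z ⊆ cz z := by
  rcases z with (_ | _) | k
  · rintro x ⟨h1, h2⟩
    refine ⟨?_, mem_iInter.2 fun k => ?_⟩
    · have h3 : ‖x‖ < D0.R := h2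
      simpa using h3.le
    · have h3 : (1 / 32 : ℝ) < ‖x - ctr k‖ := h1 k
      exact h3.le
  · rintro x ⟨-, h2⟩
    have h3 : ‖x‖ < D0.R⁻¹ := h2
    change x ∈ Metric.closedBall (0 : ℂ) D0.R⁻¹
    rw [mem_closedBall_zero_iff]
    exact h3.le
  · rintro x ⟨-, h2⟩
    change x ∈ Metric.closedBall (0 : ℂ) 1
    rw [mem_closedBall_zero_iff]
    exact h2.le

/-- The closed cell. -/
def Kc (c : Cell) : Set (Fin 8 → ℂ) :=
  univ.pi fun j => if j.1 < 6 then Metric.closedBall 0 1 else
    if j = 6 then cz (c.loc true) else cz (c.loc false)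

theorem isCompact_Kc : IsCompact (Kc c) := by
  refine isCompact_univ_pi fun j => ?_
  split_ifs
  · exact isCompact_closedBall _ _
  · exact isCompact_cz _
  · exact isCompact_cz _

variable {c}

theorem Kc_lt {ζ : Fin 8 → ℂ} (h : ζ ∈ Kc c) {j : Fin 8} (hj : j.1 < 6) : ‖ζ j‖ ≤ 1 := by
  have := h j (mem_univ j)
  simp only [if_pos hj] at this
  simpa using this

theorem Kc_cf {ζ : Fin 8 → ℂ} (h : ζ ∈ Kc c) (b : Bool) : ζ (cf b) ∈ cz (c.loc b) := by
  have := h (cf b) (mem_univ _)
  cases b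
  · simpa [cf] using this
  · simpa [cf] using this

theorem Om_subset_Kc (s : Bool) : D0.Om s c ⊆ Kc c := by
  rintro ζ ⟨h1, h2, h3, -⟩ j -
  simp only
  split_ifs with h4 h5
  · simpa using (h1 j h4).2.le
  · subst h5
    exact dom_subset_cz _ h2
  · have h6 : j = 7 := by
      apply Fin.ext
      have h7 : j.1 ≠ 6 := fun h => h5 (Fin.ext h)
      have h8 := j.2
      change j.1 = 7
      omega
    subst h6
    exact dom_subset_cz _ h3

/-- The core mark number `i` of a group in the neck `k` is in the neck `k`. -/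
theorem cb_loc {z : Bool} {k : Fin 3} {i : ℕ} (hi : i < nc e c.lo z k) :
    c.loc (cb e c z k i) = .inr k := by
  have hlo : ∀ b, c.lo b = some k → c.loc b = .inr k := by
    intro b hb
    unfold Cell.lo Zone.nk at hb
    rcases h : c.loc b with w | k'
    · rw [h] at hb; simp at hb
    · rw [h] at hb
      simp only [Sum.elim_inr, Option.some.injEq] at hb
      rw [hb]
  apply hlo
  by_cases h1 : c.lo true = some k ∧ e true = z ∧ ic e c.lo (c.oo e) true = i
  · have : cb e c z k i = true := by simpa [cb] using h1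
    rw [this]
    exact h1.1
  · have h2 : cb e c z k i = false := by simpa [cb] using h1
    rw [h2]
    by_contra h3
    unfold nc at hi
    rw [if_neg (fun h : c.lo false = some k ∧ e false = z => h3 h.1), add_zero] at hi
    split_ifs at hi with h4
    · apply h1
      refine ⟨h4.1, h4.2, ?_⟩
      unfold ic
      rw [if_neg]
      · omega
      · rintro ⟨h5, -⟩
        exact h3 (by rw [← h4.1]; exact h5)
    · omega

/-- The number of marks in a neck. -/
theorem n_eq (k : Fin 3) : (rg (Tc hp hq σ e c)).n k =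
    nc e c.lo false k + 2 * len p q k + nc e c.lo true k :=
  card_slot (e := e) (loc := c.lo) hp hq σ k

/-- All gaps are at most one in the closed cell. -/
theorem gi_le {ζ : Fin 8 → ℂ} (h : ζ ∈ Kc c) {k : Fin 3} {g : ℕ}
    (hg : g < nc e c.lo false k + 2 * len p q k + nc e c.lo true k + 1) (hp : p ≤ q) (hq : q ≤ 6) :
    ‖(gi p q e c k g).elim 0 ζ‖ ≤ 1 := by
  have key : ∀ z i, i < nc e c.lo z k → ‖ζ (cf (cb e c z k i))‖ ≤ 1 := by
    intro z i hi
    have h1 := Kc_cf h (cb e c z k i)
    rw [cb_loc e hi] at h1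
    exact mem_closedBall_zero_iff.1 h1
  unfold gi
  split_ifs with h1 h2 h3
  · exact key _ _ h1
  · simp
  · refine Kc_lt h ?_
    have h4 := off_add_len hp hq k
    change (off p q k + (g - nc e c.lo false k - 1) / 2) % 8 < 6
    omega
  · exact key _ _ (by omega)

theorem cw_fst {R : Region} (k : Fin 3) : ‖H732.cw R ⟨k, 0⟩‖ ≤ 1 / 16 := by
  have h : (((⟨k, 0⟩ : R.Gap).2 : Fin _) : ℕ) = 0 := rfl
  unfold H732.cw
  rw [if_pos h]
  split_ifs <;> norm_num

theorem cw_lst {R : Region} (k : Fin 3) : ‖H732.cw R ⟨k, Fin.last _⟩‖ ≤ 1 / 16 := by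
  have h : (((⟨k, Fin.last _⟩ : R.Gap).2 : Fin _) : ℕ) = R.n k := rfl
  unfold H732.cw
  rw [if_pos h]
  split_ifs <;> norm_num

/-- **(T1), first part.** The image of the closed cell is in the closed cell of the region. -/
theorem iot_Cl {ζ : Fin 8 → ℂ} (h : ζ ∈ Kc c) :
    Cl (Tc hp hq σ e c) (Sc σ c) (H732.scl _ (iot hp hq σ e c ζ)) := by
  have hle : ∀ g : (rg (Tc hp hq σ e c)).Gap, ‖(iot hp hq σ e c ζ).1 g‖ ≤ 1 := by
    intro g
    rw [iot_fst]
    refine gi_le e h ?_ hp hq
    have h1 := g.2.2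
    have h2 := n_eq hp hq σ e (c := c) g.1
    omega
  have hcore : ∀ j : (rg (Tc hp hq σ e c)).Cm,
      ∃ z, c.loc j.1.2 = .inl z ∧ σ j.1.2 j.1.1 = 6 := by
    intro j
    have h1 : (pl0 p q e c.lo (σ j.1.2 j.1.1) j.1.2).isRight = true := j.2
    by_cases h2 : (σ j.1.2 j.1.1).1 < 6
    · rw [pl0_lt h2] at h1
      simp at h1
    · have h6 : σ j.1.2 j.1.1 = 6 := by
        apply Fin.ext
        change (σ j.1.2 j.1.1).1 = 6
        omega
      rcases h3 : c.loc j.1.2 with z | k
      · exact ⟨z, rfl, h6⟩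
      · have h4 : c.lo j.1.2 = some k := by rw [Cell.lo, h3]; rfl
        rw [pl0_some h2 h4] at h1
        simp at h1
  have hscl : ∀ g, (H732.scl _ (iot hp hq σ e c ζ)).1 g =
      H732.cw _ g * (iot hp hq σ e c ζ).1 g := fun g => by rw [H732.scl_apply]
  have hscl2 : ∀ j, (H732.scl _ (iot hp hq σ e c ζ)).2 j = ζ (cf j.1.2) := fun j => by
    rw [H732.scl_apply]; rfl
  refine ⟨fun k g hg => ?_, fun g => ?_, fun k => ?_, fun k => ?_, fun j hj l => ?_, fun j hj => ?_⟩
  · rw [hscl, iot_fst]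
    have h1 : ((g : ℕ)) ∈ (Finset.range (len p q k + 1)).image
        fun r => nc e c.lo false k + 2 * r := hg
    obtain ⟨r, hr, hgr⟩ := Finset.mem_image.1 h1
    rw [Finset.mem_range] at hr
    have h2 : gi p q e c k g = none := by
      unfold gi
      rw [if_neg (by omega), if_pos (by omega), if_pos (by omega)]
    simp only [h2, Option.elim_none, mul_zero]
  · rw [hscl, norm_mul]
    calc _ ≤ 1 * 1 := mul_le_mul (H732.norm_cw_le _ g) (hle g) (norm_nonneg _) zero_le_one
      _ = 1 := one_mul 1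
  · rw [hscl, norm_mul]
    calc _ ≤ 1 / 16 * 1 := mul_le_mul (cw_fst k) (hle _) (norm_nonneg _) (by norm_num)
      _ = 1 / 16 := mul_one _
  · rw [hscl, norm_mul]
    calc _ ≤ 1 / 16 * 1 := mul_le_mul (cw_lst k) (hle _) (norm_nonneg _) (by norm_num)
      _ = 1 / 16 := mul_one _
  · rw [hscl2]
    obtain ⟨z, hz, h6⟩ := hcore j
    have hz' : z = false := by
      by_contra hz'
      have : z = true := by simpa using hz'
      subst this
      have : Sc σ c j = true := by simp [Sc, h6, hz]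
      rw [this] at hj
      exact absurd hj (by simp)
    subst hz'
    have h1 := Kc_cf h j.1.2
    rw [hz] at h1
    exact mem_iInter.1 h1.2 l
  · rw [hscl2]
    have hS : σ j.1.2 j.1.1 = 6 ∧ c.loc j.1.2 = Sum.inl true := by simpa [Sc] using hj
    have h1 := Kc_cf h j.1.2
    rw [hS.2] at h1
    have h2 := mem_closedBall_zero_iff.1 h1
    exact h2.trans invR_le

/-- **(T1)** The image of the closed cell is in the domain of the region. -/
theorem iot_dom {ζ : Fin 8 → ℂ} (h : ζ ∈ Kc c) :
    H732.scl _ (iot hp hq σ e c ζ) ∈ (rg (Tc hp hq σ e c)).dom (Sc σ c) :=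
  (iot_Cl hp hq σ e h).mem_dom (farOk hp hq σ e c)
    (enc_good (f := c.bit) (o := c.oo e) (e := e) (loc := c.lo) hp hq σ).2.1

theorem continuousOn_val (X : Ext) : ContinuousOn (val X hp hq σ e c) (Kc c) := by
  have h1 : ContinuousOn (fun ζ => H732.FW X (rg (Tc hp hq σ e c)) (Sc σ c) (iot hp hq σ e c ζ))
      (Kc c) :=
    (H732.continuousOn_FW X _ _ (farOk hp hq σ e c)).comp
      (iot hp hq σ e c).continuous.continuousOn fun ζ hζ => iot_dom hp hq σ e hζ
  exact (continuous_eval_const (F := Alt 16 (rg (Tc hp hq σ e c)).Sp)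
    (fun a : Fin 16 => iot hp hq σ e c (fr (m := 8) a))).comp_continuousOn h1

/-- **(T2)** The cell integrand is integrable. -/
theorem val_int (X : Ext) (s : Bool) : IntegrableOn (val X hp hq σ e c) (D0.Om s c) :=
  ((continuousOn_val hp hq σ e X).integrableOn_compact (isCompact_Kc c)).mono_set
    (Om_subset_Kc s)

/-- The cell integrand is bounded. -/
theorem val_bounded (X : Ext) : ∃ B : ℝ, ∀ ζ ∈ Kc c, ‖val X hp hq σ e c ζ‖ ≤ B :=
  (isCompact_Kc c).exists_bound_of_continuousOn (continuousOn_val hp hq σ e X)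

end Vale.Agent.P273.H720

end
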